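import Mathlib

/-!
P033 (circulant Hadamard conjecture).  A circulant Hadamard matrix of order `n` is given by a
sign vector `h` on `ZMod n` all of whose periodic autocorrelations at nonzero shifts vanish.
We show that such a first row is never invariant, up to a global sign, under any of the
following affine involutions of the index set:

* a skew reflection `i ↦ c - i` with sign `-1` (any `c`, any `n`);
* a reflection `i ↦ c - i` with odd centre parameter `c` (any even `n`);
* the map `i ↦ (1 + n/2) i + g` (any shift `g`, any sign), whenever `n ≡ 4 (mod 8)`, `n > 4`.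
-/

namespace Vale.Agent.Results.P033.AffineInvolutions

open Finset

variable {n : ℕ} [NeZero n]

/-- weighted sum identity: for a multiplicative sign weight `χ`, the square of the weighted
sum of `h` equals `n`. -/
theorem charsum (h χ : ZMod n → ℤ)
    (hH : ∀ t : ZMod n, t ≠ 0 → ∑ j, h j * h (j + t) = 0)
    (hsq : ∀ i, h i * h i = 1)
    (hχ : ∀ i t, χ (i + t) = χ i * χ t) (hχ2 : ∀ i, χ i * χ i = 1) :
    (∑ i, χ i * h i) * (∑ i, χ i * h i) = n := by
  have h0 : χ 0 = 1 := by
    have h1 := hχ 0 0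
    have h2 := hχ2 0
    simp only [add_zero] at h1
    rw [h2] at h1; exact h1
  rw [Finset.sum_mul_sum]
  have step : ∀ i : ZMod n,
      ∑ j, χ i * h i * (χ j * h j) = ∑ t, χ t * (h i * h (i + t)) := by
    intro i
    symm
    apply Fintype.sum_equiv (Equiv.addLeft i)
    intro t
    simp only [Equiv.coe_addLeft]
    rw [hχ i t]
    have := hχ2 i
    linear_combination (-(χ t * h i * h (i + t))) * this
  rw [Finset.sum_congr rfl (fun i _ => step i), Finset.sum_comm]
  have step2 : ∀ t : ZMod n,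
      ∑ i, χ t * (h i * h (i + t)) = if t = 0 then (n : ℤ) else 0 := by
    intro t
    rw [← Finset.mul_sum]
    split_ifs with ht
    · subst ht
      simp only [add_zero, hsq, h0, one_mul, Finset.sum_const, Finset.card_univ, ZMod.card,
        nsmul_eq_mul, mul_one]
    · rw [hH t ht, mul_zero]
  rw [Finset.sum_congr rfl (fun t _ => step2 t)]
  simp

omit [NeZero n] in
theorem sq_one (h : ZMod n → ℤ) (hpm : ∀ i, h i = 1 ∨ h i = -1) (i : ZMod n) :
    h i * h i = 1 := by
  rcases hpm i with h1 | h1 <;> rw [h1] <;> norm_num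

theorem no_skew_reflection (h : ZMod n → ℤ) (hpm : ∀ i, h i = 1 ∨ h i = -1)
    (hH : ∀ t : ZMod n, t ≠ 0 → ∑ j, h j * h (j + t) = 0) :
    ¬ ∃ c : ZMod n, ∀ i, h (c - i) = - h i := by
  rintro ⟨c, hc⟩
  have key := charsum h (fun _ => 1) hH (sq_one h hpm) (fun _ _ => by norm_num)
    (fun _ => by norm_num)
  simp only [one_mul] at key
  have hS : ∑ i, h i = - ∑ i, h i := by
    rw [← Finset.sum_neg_distrib]
    apply Fintype.sum_equiv (Equiv.subLeft c)
    intro i
    simp only [Equiv.subLeft_apply]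
    rw [hc i, neg_neg]
  have hS0 : ∑ i, h i = 0 := by linarith
  rw [hS0] at key
  have : (n : ℤ) ≠ 0 := by exact_mod_cast NeZero.ne n
  exact this (by linarith)

theorem no_odd_reflection (hn : Even n) (h : ZMod n → ℤ) (hpm : ∀ i, h i = 1 ∨ h i = -1)
    (hH : ∀ t : ZMod n, t ≠ 0 → ∑ j, h j * h (j + t) = 0) :
    ¬ ∃ c : ZMod n, c.val % 2 = 1 ∧ ∀ i, h (c - i) = h i := by
  rintro ⟨c, hc1, hc⟩
  have h2n : 2 ∣ n := hn.two_dvd
  have hval : ∀ i t : ZMod n, (i + t).val % 2 = (i.val + t.val) % 2 := by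
    intro i t; rw [ZMod.val_add, Nat.mod_mod_of_dvd _ h2n]
  have hχ : ∀ i t : ZMod n, (if (i + t).val % 2 = 0 then (1 : ℤ) else -1)
      = (if i.val % 2 = 0 then (1 : ℤ) else -1) * (if t.val % 2 = 0 then (1 : ℤ) else -1) := by
    intro i t
    rw [hval]
    split_ifs <;> omega
  have hχ2 : ∀ i : ZMod n, (if i.val % 2 = 0 then (1 : ℤ) else -1)
      * (if i.val % 2 = 0 then (1 : ℤ) else -1) = 1 := by
    intro i; split_ifs <;> norm_num
  have key := charsum h (fun i => if i.val % 2 = 0 then (1 : ℤ) else -1) hH (sq_one h hpm)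
    hχ hχ2
  have hneg : ∀ i : ZMod n, (if (c - i).val % 2 = 0 then (1 : ℤ) else -1)
      = - (if i.val % 2 = 0 then (1 : ℤ) else -1) := by
    intro i
    have h1 := hχ (c - i) i
    rw [sub_add_cancel] at h1
    have hcc : (if c.val % 2 = 0 then (1 : ℤ) else -1) = -1 := by
      rw [if_neg (by omega)]
    rw [hcc] at h1
    have h2 := hχ2 i
    linear_combination (-(if i.val % 2 = 0 then (1 : ℤ) else -1)) * h1
      - (if (c - i).val % 2 = 0 then (1 : ℤ) else -1) * h2
  have hS : ∑ i : ZMod n, (if i.val % 2 = 0 then (1 : ℤ) else -1) * h i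
      = - ∑ i : ZMod n, (if i.val % 2 = 0 then (1 : ℤ) else -1) * h i := by
    rw [← Finset.sum_neg_distrib]
    apply Fintype.sum_equiv (Equiv.subLeft c)
    intro i
    simp only [Equiv.subLeft_apply]
    rw [hneg i, hc i]; ring
  have hS0 : ∑ i : ZMod n, (if i.val % 2 = 0 then (1 : ℤ) else -1) * h i = 0 := by linarith
  rw [hS0] at key
  have : (n : ℤ) ≠ 0 := by exact_mod_cast NeZero.ne n
  exact this (by linarith)


/-- one class forces the other: if `h (i + d) = ε * h i` on the class `v = 1`, the two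
classes have equal size and `d ≠ 0`, then `h (i + d) = - ε * h i` on the class `v = 0`. -/
theorem classStep (h : ZMod n → ℤ) (hpm : ∀ i, h i = 1 ∨ h i = -1)
    (hH : ∀ t : ZMod n, t ≠ 0 → ∑ j, h j * h (j + t) = 0)
    (ε : ℤ) (hε : ε = 1 ∨ ε = -1) (v : ZMod n → ℤ) (hv : ∀ i, v i = 1 ∨ v i = 0)
    (hbal : ∑ i, v i = ∑ i, (1 - v i)) (d : ZMod n) (hd : d ≠ 0)
    (hon : ∀ i, v i = 1 → h (i + d) = ε * h i) :
    ∀ i, v i = 0 → h (i + d) = - ε * h i := by
  have hP := hH d hd
  have hεε : ε * ε = 1 := by rcases hε with h1 | h1 <;> rw [h1] <;> norm_num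
  have e1 : ∀ i, (1 - v i) * (ε * h i * h (i + d) + 1)
      = ε * (h i * h (i + d)) - v i + (1 - v i) := by
    intro i
    rcases hv i with h1 | h0
    · rw [h1, hon i h1]
      have := sq_one h hpm i
      linear_combination (-(ε * ε)) * this - hεε
    · rw [h0]; ring
  have key : ∑ i, (1 - v i) * (ε * h i * h (i + d) + 1) = 0 := by
    rw [Finset.sum_congr rfl (fun i _ => e1 i), Finset.sum_add_distrib, Finset.sum_sub_distrib,
      ← Finset.mul_sum, hP, hbal]
    ring
  have nonneg : ∀ i ∈ (Finset.univ : Finset (ZMod n)),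
      0 ≤ (1 - v i) * (ε * h i * h (i + d) + 1) := by
    intro i _
    rcases hv i with h1 | h0
    · rw [h1]; norm_num
    · rw [h0]
      rcases hε with h1 | h1 <;> rcases hpm i with h2 | h2 <;> rcases hpm (i + d) with h3 | h3
        <;> rw [h1, h2, h3] <;> norm_num
  have all0 := (Finset.sum_eq_zero_iff_of_nonneg nonneg).mp key
  intro i hvi
  have h0 := all0 i (Finset.mem_univ i)
  rw [hvi] at h0
  rcases hε with h1 | h1 <;> rcases hpm i with h2 | h2 <;> rcases hpm (i + d) with h3 | h3
    <;> rw [h1, h2, h3] at h0 ⊢ <;> omega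

/-- the final parity obstruction. -/
theorem finalStep (hn8 : n % 8 = 4) (h : ZMod n → ℤ) (hpm : ∀ i, h i = 1 ∨ h i = -1)
    (hH : ∀ t : ZMod n, t ≠ 0 → ∑ j, h j * h (j + t) = 0)
    (M : ZMod n) (h2 : (2 : ZMod n) ≠ 0) (h2M : (2 : ZMod n) + M ≠ 0)
    (w : ZMod n → ℤ) (hw : ∀ i, w i = 1 ∨ w i = 0) (hw2 : ∀ i, w (i + 2) = w i)
    (hbal : ∑ i, w i = ∑ i, (1 - w i))
    (s : ℤ) (hs : s = 1 ∨ s = -1)
    (hper : ∀ i, (w i = 1 → h (i + M) = s * h i) ∧ (w i = 0 → h (i + M) = - s * h i)) :
    False := by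
  have hP2 := hH 2 h2
  have hP2M := hH (2 + M) h2M
  have hss : s * s = 1 := by rcases hs with h1 | h1 <;> rw [h1] <;> norm_num
  -- the two class sums at shift 2
  have hsplit : ∑ i, h i * h (i + 2)
      = ∑ i, w i * (h i * h (i + 2)) + ∑ i, (1 - w i) * (h i * h (i + 2)) := by
    rw [← Finset.sum_add_distrib]
    exact Finset.sum_congr rfl (fun i _ => by ring)
  have hsplitM : ∑ i, h i * h (i + (2 + M))
      = s * ∑ i, w i * (h i * h (i + 2)) - s * ∑ i, (1 - w i) * (h i * h (i + 2)) := by
    rw [Finset.mul_sum, Finset.mul_sum, ← Finset.sum_sub_distrib]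
    apply Finset.sum_congr rfl
    intro i _
    rw [← add_assoc]
    rcases hw i with h1 | h0
    · rw [(hper (i + 2)).1 (by rw [hw2, h1]), h1]; ring
    · rw [(hper (i + 2)).2 (by rw [hw2, h0]), h0]; ring
  rw [hsplit] at hP2
  rw [hsplitM] at hP2M
  have hE : ∑ i, w i * (h i * h (i + 2)) = 0 := by
    have h3 : s * (∑ i, w i * (h i * h (i + 2)) - ∑ i, (1 - w i) * (h i * h (i + 2))) = 0 := by
      linarith
    have h4 : ∑ i, w i * (h i * h (i + 2)) - ∑ i, (1 - w i) * (h i * h (i + 2)) = 0 := by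
      have := congrArg (fun x => s * x) h3
      simp only [mul_zero] at this
      linear_combination this - (∑ i, w i * (h i * h (i + 2))
        - ∑ i, (1 - w i) * (h i * h (i + 2))) * hss
    linarith
  -- reduce modulo 4
  have hu : ∀ i, ∃ u : ℤ, h i = 1 - 2 * u := by
    intro i
    rcases hpm i with h1 | h1
    · exact ⟨0, by rw [h1]; norm_num⟩
    · exact ⟨1, by rw [h1]; norm_num⟩
  choose u hu using hu
  have hshift : ∑ i, w i * u (i + 2) = ∑ i, w i * u i := by
    apply Fintype.sum_equiv (Equiv.addRight 2)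
    intro i
    simp only [Equiv.coe_addRight]
    rw [hw2]
  have hexp : ∑ i, w i * (h i * h (i + 2))
      = ∑ i, w i - 4 * ∑ i, w i * u i + 4 * ∑ i, w i * (u i * u (i + 2)) := by
    have e : ∀ i, w i * (h i * h (i + 2))
        = w i - 2 * (w i * u i) - 2 * (w i * u (i + 2)) + 4 * (w i * (u i * u (i + 2))) := by
      intro i; rw [hu i, hu (i + 2)]; ring
    rw [Finset.sum_congr rfl (fun i _ => e i), Finset.sum_add_distrib, Finset.sum_sub_distrib,
      Finset.sum_sub_distrib, ← Finset.mul_sum, ← Finset.mul_sum, ← Finset.mul_sum, hshift]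
    ring
  have hW : 2 * ∑ i, w i = (n : ℤ) := by
    have : ∑ i, w i + ∑ i, (1 - w i) = (n : ℤ) := by
      rw [← Finset.sum_add_distrib]
      simp
    linarith
  rw [hexp] at hE
  omega


theorem no_half_multiplier (hn8 : n % 8 = 4) (hn4 : 4 < n) (h : ZMod n → ℤ)
    (hpm : ∀ i, h i = 1 ∨ h i = -1)
    (hH : ∀ t : ZMod n, t ≠ 0 → ∑ j, h j * h (j + t) = 0) :
    ¬ ∃ (g : ZMod n) (ε : ℤ),
      ∀ i, h ((1 + ((n / 2 : ℕ) : ZMod n)) * i + g) = ε * h i := by
  rintro ⟨g, ε, hsym⟩
  have hsq := sq_one h hpm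
  obtain ⟨M, hM⟩ : ∃ M : ZMod n, M = ((n / 2 : ℕ) : ZMod n) := ⟨_, rfl⟩
  rw [← hM] at hsym
  have hMM : M + M = 0 := by
    rw [hM, ← Nat.cast_add]
    have : n / 2 + n / 2 = n := by omega
    rw [this]; exact ZMod.natCast_self n
  have hM0 : M ≠ 0 := by
    rw [hM]; intro h0
    rw [ZMod.natCast_eq_zero_iff] at h0
    have := Nat.le_of_dvd (by omega) h0
    omega
  have hMsq : M * M = 0 := by
    have h4 : M = ((n / 4 : ℕ) : ZMod n) + ((n / 4 : ℕ) : ZMod n) := by
      rw [hM, ← Nat.cast_add]; congr 1; omega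
    calc M * M = M * (((n / 4 : ℕ) : ZMod n) + ((n / 4 : ℕ) : ZMod n)) := by rw [← h4]
      _ = (M + M) * ((n / 4 : ℕ) : ZMod n) := by ring
      _ = 0 := by rw [hMM, zero_mul]
  have hdich : ∀ i : ZMod n, M * i = 0 ∨ M * i = M := by
    intro i
    have hi : i = ((i.val : ℕ) : ZMod n) := (ZMod.natCast_zmod_val i).symm
    rcases Nat.even_or_odd' i.val with ⟨q, hq | hq⟩
    · left; rw [hi, hq]; push_cast
      calc M * (2 * (q : ZMod n)) = (M + M) * q := by ring
        _ = 0 := by rw [hMM, zero_mul]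
    · right; rw [hi, hq]; push_cast
      calc M * (2 * (q : ZMod n) + 1) = (M + M) * q + M := by ring
        _ = M := by rw [hMM, zero_mul, zero_add]
  have h2 : (2 : ZMod n) ≠ 0 := by
    intro h0
    have h0' : ((2 : ℕ) : ZMod n) = 0 := by exact_mod_cast h0
    rw [ZMod.natCast_eq_zero_iff] at h0'
    have := Nat.le_of_dvd (by omega) h0'
    omega
  have h2M : (2 : ZMod n) + M ≠ 0 := by
    intro h0
    have h0' : ((2 + n / 2 : ℕ) : ZMod n) = 0 := by rw [← h0, hM]; push_cast; ring
    rw [ZMod.natCast_eq_zero_iff] at h0'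
    have := Nat.le_of_dvd (by omega) h0'
    omega
  have hsym' : ∀ i, h (i + M * i + g) = ε * h i := by
    intro i; have := hsym i
    rwa [show (1 + M) * i + g = i + M * i + g by ring] at this
  -- the sign
  have hεε : ε * ε = 1 := by
    have h1 := hsym' 0
    simp only [mul_zero, add_zero, zero_add] at h1
    have h3 := hsq g
    have h4 := hsq 0
    rw [h1] at h3
    linear_combination h3 - (ε * ε) * h4
  have hε : ε = 1 ∨ ε = -1 := by
    have : (ε - 1) * (ε + 1) = 0 := by linear_combination hεε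
    rcases mul_eq_zero.mp this with h1 | h1
    · left; linarith
    · right; linarith
  -- class indicator
  obtain ⟨w, hwdef⟩ : ∃ w : ZMod n → ℤ, ∀ i, w i = if M * i = 0 then 1 else 0 := ⟨_, fun _ => rfl⟩
  have hw : ∀ i, w i = 1 ∨ w i = 0 := by
    intro i; rw [hwdef]; split_ifs
    · left; rfl
    · right; rfl
  have hw1 : ∀ i, w i = 1 → M * i = 0 := by
    intro i hi; rw [hwdef] at hi
    by_contra hne
    rw [if_neg hne] at hi; norm_num at hi
  have hw0 : ∀ i, w i = 0 → M * i = M := by
    intro i hi; rw [hwdef] at hi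
    rcases hdich i with h1 | h1
    · rw [if_pos h1] at hi; norm_num at hi
    · exact h1
  have hwadd1 : ∀ i, w (i + 1) = 1 - w i := by
    intro i
    rw [hwdef, hwdef, mul_add, mul_one]
    rcases hdich i with h1 | h1
    · rw [h1, zero_add, if_neg hM0, if_pos rfl]; norm_num
    · rw [h1, hMM, if_pos rfl, if_neg hM0]; norm_num
  have hw2 : ∀ i, w (i + 2) = w i := by
    intro i
    rw [show i + 2 = (i + 1) + 1 by ring, hwadd1, hwadd1]; ring
  have hwM : ∀ i, w (i + M) = w i := by
    intro i
    rw [hwdef, hwdef, mul_add, hMsq, add_zero]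
  have hbal : ∑ i, w i = ∑ i, (1 - w i) := by
    symm
    apply Fintype.sum_equiv (Equiv.addRight 1)
    intro i
    simp only [Equiv.coe_addRight]
    rw [hwadd1]
  have hv' : ∀ i, (1 - w i) = 1 ∨ (1 - w i) = 0 := by
    intro i; rcases hw i with h1 | h1 <;> rw [h1] <;> norm_num
  have hbal' : ∑ i, (1 - w i) = ∑ i, (1 - (1 - w i)) := by
    rw [← hbal]; exact Finset.sum_congr rfl (fun i _ => by ring)
  -- elementwise forms of the symmetry
  have hE : ∀ i, w i = 1 → h (i + g) = ε * h i := by
    intro i hi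
    have := hsym' i
    rwa [hw1 i hi, add_zero] at this
  have hO : ∀ i, w i = 0 → h (i + (g + M)) = ε * h i := by
    intro i hi
    have := hsym' i
    rw [hw0 i hi] at this
    rwa [show i + (g + M) = i + M + g by ring]
  by_cases hg0 : g = 0
  · -- g = 0
    subst hg0
    have hε1 : ε = 1 := by
      have h1 := hE 0 (by rw [hwdef, mul_zero, if_pos rfl])
      rw [add_zero] at h1
      rcases hpm 0 with h5 | h5 <;> rw [h5] at h1 <;> linarith
    subst hε1
    have hOdd : ∀ i, w i = 0 → h (i + M) = 1 * h i := by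
      intro i hi; have := hO i hi; rwa [zero_add] at this
    have hEven := classStep h hpm hH 1 (Or.inl rfl) (fun i => 1 - w i) hv' hbal' M hM0
      (fun i hi => hOdd i (by linarith))
    exact finalStep hn8 h hpm hH M h2 h2M w hw hw2 hbal (-1) (Or.inr rfl)
      (fun i => ⟨fun hi => by have := hEven i (by linarith); linarith,
        fun hi => by have := hOdd i hi; linarith⟩)
  · by_cases hgM : g + M = 0
    · -- g = M
      have hgM' : g = M := by
        have : g + M = M + M := by rw [hgM, hMM]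
        exact add_right_cancel this
      subst hgM'
      have hε1 : ε = 1 := by
        have hw10 : w 1 = 0 := by rw [hwdef, mul_one, if_neg hM0]
        have h1 := hO 1 hw10
        rw [hgM, add_zero] at h1
        rcases hpm 1 with h5 | h5 <;> rw [h5] at h1 <;> linarith
      subst hε1
      have hOdd := classStep h hpm hH 1 (Or.inl rfl) w hw hbal g hg0 hE
      exact finalStep hn8 h hpm hH g h2 h2M w hw hw2 hbal 1 (Or.inl rfl)
        (fun i => ⟨fun hi => by have := hE i hi; linarith,
          fun hi => by have := hOdd i hi; linarith⟩)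
    · -- generic g: antiperiodicity with period M
      have hA := classStep h hpm hH ε hε w hw hbal g hg0 hE
      have hB := classStep h hpm hH ε hε (fun i => 1 - w i) hv' hbal' (g + M) hgM
        (fun i hi => hO i (by linarith))
      have hanti : ∀ j, h j * h (j + M) = -1 := by
        intro j
        obtain ⟨i, rfl⟩ : ∃ i, j = i + g := ⟨j - g, by ring⟩
        rw [show i + g + M = i + (g + M) by ring]
        rcases hw i with h1 | h0
        · rw [hE i h1, hB i (by linarith)]
          have := hsq i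
          linear_combination (-(ε * ε)) * this - hεε
        · rw [hA i h0, hO i h0]
          have := hsq i
          linear_combination (-(ε * ε)) * this - hεε
      have hPM := hH M hM0
      rw [Finset.sum_congr rfl (fun j _ => hanti j)] at hPM
      simp at hPM
      exact (NeZero.ne n) hPM

/-- **Main statement.**  Let `h : ZMod n → ℤ` be a sign vector all of whose periodic
autocorrelations at nonzero shifts vanish (the first row of a circulant Hadamard matrix of
order `n`).  Then `h` has no skew reflection symmetry, no reflection symmetry with odd centre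
parameter (for even `n`), and, when `n ≡ 4 (mod 8)` and `n > 4`, it is not invariant up to
sign under any map `i ↦ (1 + n/2) i + g`. -/
theorem result (n : ℕ) [NeZero n] (h : ZMod n → ℤ) (hpm : ∀ i, h i = 1 ∨ h i = -1)
    (hH : ∀ t : ZMod n, t ≠ 0 → ∑ j, h j * h (j + t) = 0) :
    (¬ ∃ c : ZMod n, ∀ i, h (c - i) = - h i) ∧
    (Even n → ¬ ∃ c : ZMod n, c.val % 2 = 1 ∧ ∀ i, h (c - i) = h i) ∧
    (n % 8 = 4 → 4 < n → ¬ ∃ (g : ZMod n) (ε : ℤ),
      ∀ i, h ((1 + ((n / 2 : ℕ) : ZMod n)) * i + g) = ε * h i) :=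
  ⟨no_skew_reflection h hpm hH, fun hn => no_odd_reflection hn h hpm hH,
    fun hn8 hn4 => no_half_multiplier hn8 hn4 h hpm hH⟩

end Vale.Agent.Results.P033.AffineInvolutions
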