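import Mathlib
import Vale.Agent.Results.P033.AffineInvolutions

/-!
P033 (circulant Hadamard conjecture).  Let `h : ZMod n → ℤ` be a sign vector whose periodic
autocorrelations vanish at all nonzero shifts (the first row of a circulant Hadamard matrix).

* `affine_fixed`: if `h (t i + g) = ε h i` for a unit `t`, then `ε = 1` and the affine map
  `i ↦ t i + g` has a fixed point.
* `sqzero_multiplier`: if `h ((1 + d) i) = h i` for all `i` and `d * d = 0`, then `d + d = 0`.
* `result`: for `n ≡ 4 (mod 8)`, `n > 4`, every affine symmetry `i ↦ t i + g` of `h` up to a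
  factor, with `(t - 1)^2 = 0`, is the identity.
-/

namespace Vale.Agent.Results.P033.UnipotentSymmetries

open Finset
open Vale.Agent.Results.P033.AffineInvolutions

variable {n : ℕ} [NeZero n]

theorem autocorr (h : ZMod n → ℤ) (hpm : ∀ i, h i = 1 ∨ h i = -1)
    (hH : ∀ t : ZMod n, t ≠ 0 → ∑ j, h j * h (j + t) = 0) (s : ZMod n) :
    ∑ j, h j * h (j + s) = if s = 0 then (n : ℤ) else 0 := by
  split_ifs with hs
  · subst hs
    simp only [add_zero, sq_one h hpm, Finset.sum_const, Finset.card_univ, ZMod.card,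
      nsmul_eq_mul, mul_one]
  · exact hH s hs

theorem ind_sum (p : ZMod n → Prop) [DecidablePred p] (N : ℤ) :
    ∑ j, (if p j then N else 0) = N * ∑ j, (if p j then (1 : ℤ) else 0) := by
  rw [Finset.mul_sum]
  apply Finset.sum_congr rfl
  intro j _
  split_ifs <;> simp

/-- the number of solutions of `d * j = 0` is at least one. -/
theorem ker_pos (d : ZMod n) : 1 ≤ ∑ j : ZMod n, (if d * j = 0 then (1 : ℤ) else 0) := by
  have h0 : (if d * (0 : ZMod n) = 0 then (1 : ℤ) else 0) = 1 := by simp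
  calc (1 : ℤ) = (if d * (0 : ZMod n) = 0 then (1 : ℤ) else 0) := h0.symm
    _ ≤ ∑ j : ZMod n, (if d * j = 0 then (1 : ℤ) else 0) :=
      Finset.single_le_sum (f := fun j : ZMod n => (if d * j = 0 then (1 : ℤ) else 0))
        (fun j _ => by split_ifs <;> norm_num) (Finset.mem_univ 0)

theorem affine_fixed (h : ZMod n → ℤ) (hpm : ∀ i, h i = 1 ∨ h i = -1)
    (hH : ∀ t : ZMod n, t ≠ 0 → ∑ j, h j * h (j + t) = 0)
    (t g : ZMod n) (ε : ℤ) (ht : IsUnit t) (hsym : ∀ i, h (t * i + g) = ε * h i) :
    ε = 1 ∧ ∃ i0 : ZMod n, t * i0 + g = i0 := by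
  have hsq := sq_one h hpm
  obtain ⟨d, hd⟩ : ∃ d : ZMod n, d = t - 1 := ⟨_, rfl⟩
  have ht' : t = 1 + d := by rw [hd]; ring
  obtain ⟨S, hS⟩ : ∃ S : ZMod n → ℤ, ∀ x, S x = ∑ j, h (x + d * j) := ⟨_, fun _ => rfl⟩
  have hS1 : ∀ x y, S (x + d * y) = S x := by
    intro x y
    rw [hS, hS]
    apply Fintype.sum_equiv (Equiv.addLeft y)
    intro j
    simp only [Equiv.coe_addLeft]
    congr 1; ring
  have hS2 : ∀ x, S (t * x + g) = ε * S x := by
    intro x
    rw [hS, hS, Finset.mul_sum]
    symm
    apply Fintype.sum_equiv (Units.mulLeft ht.unit)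
    intro j
    simp only [Units.mulLeft_apply, IsUnit.unit_spec]
    rw [← hsym]
    congr 1; ring
  have hS3 : ∀ x, S (x + g) = ε * S x := by
    intro x
    have h1 := hS2 x
    have e : t * x + g = (x + g) + d * x := by rw [ht']; ring
    rw [e, hS1] at h1
    exact h1
  have hA : ∑ j, ∑ i, h i * h (i + (g + d * j)) = ∑ i, h i * S (i + g) := by
    rw [Finset.sum_comm]
    apply Finset.sum_congr rfl
    intro i _
    rw [hS, Finset.mul_sum]
    apply Finset.sum_congr rfl
    intro j _
    congr 2; ring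
  have hB : ∑ j, ∑ i, h i * h (i + d * j) = ∑ i, h i * S i := by
    rw [Finset.sum_comm]
    apply Finset.sum_congr rfl
    intro i _
    rw [hS, Finset.mul_sum]
  have hAB : ∑ j, ∑ i, h i * h (i + (g + d * j)) = ε * ∑ j, ∑ i, h i * h (i + d * j) := by
    rw [hA, hB, Finset.mul_sum]
    apply Finset.sum_congr rfl
    intro i _
    rw [hS3]; ring
  rw [Finset.sum_congr rfl (fun j _ => autocorr h hpm hH (g + d * j)),
    Finset.sum_congr rfl (fun j _ => autocorr h hpm hH (d * j)),
    ind_sum (fun j => g + d * j = 0) n, ind_sum (fun j => d * j = 0) n] at hAB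
  have hc := ker_pos d
  have ha : 0 ≤ ∑ j : ZMod n, (if g + d * j = 0 then (1 : ℤ) else 0) :=
    Finset.sum_nonneg (fun j _ => by split_ifs <;> norm_num)
  have hn : (0 : ℤ) < n := by exact_mod_cast Nat.pos_of_ne_zero (NeZero.ne n)
  have hεε : ε * ε = 1 := by
    have h1 := hsym 0
    simp only [mul_zero, zero_add] at h1
    have h3 := hsq g
    have h4 := hsq 0
    rw [h1] at h3
    linear_combination h3 - (ε * ε) * h4
  have hε : ε = 1 ∨ ε = -1 := by
    have : (ε - 1) * (ε + 1) = 0 := by linear_combination hεε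
    rcases mul_eq_zero.mp this with h1 | h1
    · left; linarith
    · right; linarith
  have hε1 : ε = 1 := by
    rcases hε with h1 | h1
    · exact h1
    · exfalso
      rw [h1] at hAB
      have : (n : ℤ) * (∑ j : ZMod n, (if g + d * j = 0 then (1 : ℤ) else 0)
          + ∑ j : ZMod n, (if d * j = 0 then (1 : ℤ) else 0)) = 0 := by linarith
      rcases mul_eq_zero.mp this with h2 | h2
      · linarith
      · linarith
  refine ⟨hε1, ?_⟩
  rw [hε1, one_mul] at hAB
  have hac : ∑ j : ZMod n, (if g + d * j = 0 then (1 : ℤ) else 0)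
      = ∑ j : ZMod n, (if d * j = 0 then (1 : ℤ) else 0) :=
    mul_left_cancel₀ (ne_of_gt hn) hAB
  by_contra hno
  have hno' : ∀ j : ZMod n, g + d * j ≠ 0 := by
    intro j hj
    apply hno
    refine ⟨j, ?_⟩
    rw [ht']
    linear_combination hj
  have hzero : ∑ j : ZMod n, (if g + d * j = 0 then (1 : ℤ) else 0) = 0 :=
    Finset.sum_eq_zero (fun j _ => by rw [if_neg (hno' j)])
  rw [hzero] at hac
  linarith

theorem sqzero_multiplier (h : ZMod n → ℤ) (hpm : ∀ i, h i = 1 ∨ h i = -1)
    (hH : ∀ t : ZMod n, t ≠ 0 → ∑ j, h j * h (j + t) = 0)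
    (d : ZMod n) (hd : d * d = 0) (hsym : ∀ i, h ((1 + d) * i) = h i) : d + d = 0 := by
  by_contra hdd
  have hne : d ≠ -d := fun e => hdd (by linear_combination e)
  have hsq := sq_one h hpm
  have hpow : ∀ (l : ℕ) (x : ZMod n), h ((1 + (l : ZMod n) * d) * x) = h x := by
    intro l
    induction l with
    | zero => intro x; simp
    | succ l ih =>
      intro x
      have e : (1 + ((l + 1 : ℕ) : ZMod n) * d) * x
          = (1 + d) * ((1 + (l : ZMod n) * d) * x) := by
        push_cast
        linear_combination (-(l : ZMod n) * x) * hd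
      rw [e, hsym, ih]
  have hpow' : ∀ (lam x : ZMod n), h ((1 + lam * d) * x) = h x := by
    intro lam x
    have := hpow lam.val x
    rwa [ZMod.natCast_zmod_val] at this
  obtain ⟨S, hS⟩ : ∃ S : ZMod n → ℤ, ∀ x, S x = ∑ j, h (x + d * j) := ⟨_, fun _ => rfl⟩
  have hF1 : ∀ i, d * i = d → S i * S i = (n : ℤ) * n := by
    intro i hdi
    have hconst : ∀ j, h (i + d * j) = h i := by
      intro j
      have := hpow' j i
      rwa [show (1 + j * d) * i = i + d * j by linear_combination j * hdi] at this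
    rw [hS, Finset.sum_congr rfl (fun j _ => hconst j)]
    simp only [Finset.sum_const, Finset.card_univ, ZMod.card, nsmul_eq_mul]
    linear_combination ((n : ℤ) * n) * hsq i
  have hF2 : ∀ i, d * i = -d → S i * S i = (n : ℤ) * n := by
    intro i hdi
    have hconst : ∀ j, h (i + d * j) = h i := by
      intro j
      have := hpow' (-j) i
      rwa [show (1 + -j * d) * i = i + d * j by linear_combination (-j) * hdi] at this
    rw [hS, Finset.sum_congr rfl (fun j _ => hconst j)]
    simp only [Finset.sum_const, Finset.card_univ, ZMod.card, nsmul_eq_mul]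
    linear_combination ((n : ℤ) * n) * hsq i
  -- the total of the squares
  have htot : ∑ i, S i * S i
      = (n : ℤ) * n * ∑ j : ZMod n, (if d * j = 0 then (1 : ℤ) else 0) := by
    have e1 : ∀ i, S i * S i = ∑ j, ∑ j', h (i + d * j) * h (i + d * j') := by
      intro i; rw [hS, Finset.sum_mul_sum]
    rw [Finset.sum_congr rfl (fun i _ => e1 i), Finset.sum_comm]
    have e2 : ∀ j : ZMod n, ∑ i, ∑ j', h (i + d * j) * h (i + d * j')
        = (n : ℤ) * ∑ j' : ZMod n, (if d * j' = 0 then (1 : ℤ) else 0) := by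
      intro j
      rw [Finset.sum_comm]
      have e3 : ∀ j' : ZMod n, ∑ i, h (i + d * j) * h (i + d * j')
          = if d * (j' - j) = 0 then (n : ℤ) else 0 := by
        intro j'
        rw [← autocorr h hpm hH (d * (j' - j))]
        apply Fintype.sum_equiv (Equiv.addRight (d * j))
        intro i
        simp only [Equiv.coe_addRight]
        congr 2; ring
      rw [Finset.sum_congr rfl (fun j' _ => e3 j'), ind_sum (fun j' => d * (j' - j) = 0) n]
      congr 1
      apply Fintype.sum_equiv (Equiv.subRight j)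
      intro j'
      simp only [Equiv.subRight_apply]
    rw [Finset.sum_congr rfl (fun j _ => e2 j)]
    simp only [Finset.sum_const, Finset.card_univ, ZMod.card, nsmul_eq_mul]
    ring
  -- lower bound
  have hlow : ∀ i, ((if d * i = d then (1 : ℤ) else 0) + (if d * i = -d then (1 : ℤ) else 0))
      * ((n : ℤ) * n) ≤ S i * S i := by
    intro i
    by_cases h1 : d * i = d
    · have h2 : ¬ d * i = -d := by rw [h1]; exact hne
      rw [if_pos h1, if_neg h2, hF1 i h1]; simp
    · by_cases h2 : d * i = -d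
      · rw [if_neg h1, if_pos h2, hF2 i h2]; simp
      · rw [if_neg h1, if_neg h2]
        have := mul_self_nonneg (S i)
        simpa using this
  have hc1 : ∑ i : ZMod n, (if d * i = d then (1 : ℤ) else 0)
      = ∑ j : ZMod n, (if d * j = 0 then (1 : ℤ) else 0) := by
    apply Fintype.sum_equiv (Equiv.subRight 1)
    intro i
    simp only [Equiv.subRight_apply, mul_sub, mul_one, sub_eq_zero]
  have hc2 : ∑ i : ZMod n, (if d * i = -d then (1 : ℤ) else 0)
      = ∑ j : ZMod n, (if d * j = 0 then (1 : ℤ) else 0) := by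
    apply Fintype.sum_equiv (Equiv.addRight 1)
    intro i
    simp only [Equiv.coe_addRight, mul_add, mul_one, add_eq_zero_iff_eq_neg]
  have hsum := Finset.sum_le_sum (fun i (_ : i ∈ (Finset.univ : Finset (ZMod n))) => hlow i)
  rw [← Finset.sum_mul, Finset.sum_add_distrib, hc1, hc2, htot] at hsum
  have hc := ker_pos d
  have hn : (0 : ℤ) < n := by exact_mod_cast Nat.pos_of_ne_zero (NeZero.ne n)
  have hnn : (0 : ℤ) < (n : ℤ) * n := mul_pos hn hn
  nlinarith

theorem eq_half (d : ZMod n) (hdd : d + d = 0) (hd0 : d ≠ 0) :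
    d = ((n / 2 : ℕ) : ZMod n) := by
  have hv : ((d.val + d.val : ℕ) : ZMod n) = 0 := by
    push_cast; rw [ZMod.natCast_zmod_val]; exact hdd
  rw [ZMod.natCast_eq_zero_iff] at hv
  have hlt : d.val < n := ZMod.val_lt d
  have hpos : d.val ≠ 0 := by
    intro h0; apply hd0; rwa [ZMod.val_eq_zero] at h0
  obtain ⟨k, hk⟩ := hv
  have hk2 : k < 2 := by
    by_contra hge
    have : n * 2 ≤ n * k := Nat.mul_le_mul_left n (by omega)
    omega
  have hk1 : k = 1 := by
    rcases Nat.eq_zero_or_pos k with h0 | h0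
    · rw [h0] at hk; omega
    · omega
  rw [hk1] at hk
  have hval : d.val = n / 2 := by omega
  rw [← hval, ZMod.natCast_zmod_val]

/-- **Main statement.** -/
theorem result (n : ℕ) [NeZero n] (h : ZMod n → ℤ) (hpm : ∀ i, h i = 1 ∨ h i = -1)
    (hH : ∀ t : ZMod n, t ≠ 0 → ∑ j, h j * h (j + t) = 0) :
    (∀ (t g : ZMod n) (ε : ℤ), IsUnit t → (∀ i, h (t * i + g) = ε * h i) →
        ε = 1 ∧ ∃ i0 : ZMod n, t * i0 + g = i0) ∧
    (∀ (t g : ZMod n) (ε : ℤ), (t - 1) * (t - 1) = 0 → (∀ i, h (t * i + g) = ε * h i) →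
        ε = 1 ∧ (t - 1) + (t - 1) = 0) ∧
    (n % 8 = 4 → 4 < n → ∀ (t g : ZMod n) (ε : ℤ), (t - 1) * (t - 1) = 0 →
        (∀ i, h (t * i + g) = ε * h i) → t = 1 ∧ g = 0 ∧ ε = 1) := by
  have part2 : ∀ (t g : ZMod n) (ε : ℤ), (t - 1) * (t - 1) = 0 →
      (∀ i, h (t * i + g) = ε * h i) → ε = 1 ∧ (t - 1) + (t - 1) = 0 := by
    intro t g ε ht hsym
    have hunit : IsUnit t := IsUnit.of_mul_eq_one (2 - t) (by linear_combination (-1 : ZMod n) * ht)
    obtain ⟨hε, i0, hi0⟩ := affine_fixed h hpm hH t g ε hunit hsym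
    refine ⟨hε, ?_⟩
    -- translate to the fixed point
    have hpm' : ∀ i, h (i + i0) = 1 ∨ h (i + i0) = -1 := fun i => hpm (i + i0)
    have hH' : ∀ s : ZMod n, s ≠ 0 → ∑ j, h (j + i0) * h (j + s + i0) = 0 := by
      intro s hs
      rw [← hH s hs]
      apply Fintype.sum_equiv (Equiv.addRight i0)
      intro j
      simp only [Equiv.coe_addRight]
      congr 2; ring
    have hsym' : ∀ i, h ((1 + (t - 1)) * i + i0) = h (i + i0) := by
      intro i
      have h1 := hsym (i + i0)
      rw [hε, one_mul] at h1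
      rw [← h1]
      congr 1
      linear_combination (-1 : ZMod n) * hi0
    exact sqzero_multiplier (fun i => h (i + i0)) hpm' hH' (t - 1) ht hsym'
  refine ⟨fun t g ε ht hsym => affine_fixed h hpm hH t g ε ht hsym, part2, ?_⟩
  intro hn8 hn4 t g ε ht hsym
  obtain ⟨hε, hdd⟩ := part2 t g ε ht hsym
  have ht1 : t = 1 := by
    by_contra hne
    have hd0 : t - 1 ≠ 0 := fun e => hne (by linear_combination e)
    have hhalf := eq_half (t - 1) hdd hd0
    apply no_half_multiplier hn8 hn4 h hpm hH
    refine ⟨g, ε, fun i => ?_⟩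
    rw [← hhalf]
    have := hsym i
    rwa [show t * i + g = (1 + (t - 1)) * i + g by ring] at this
  refine ⟨ht1, ?_, hε⟩
  by_contra hg
  have hP := hH g hg
  have hconst : ∀ j, h j * h (j + g) = 1 := by
    intro j
    have h1 := hsym j
    rw [ht1, one_mul, hε, one_mul] at h1
    rw [h1]
    exact sq_one h hpm j
  rw [Finset.sum_congr rfl (fun j _ => hconst j)] at hP
  simp at hP
  exact (NeZero.ne n) hP

end Vale.Agent.Results.P033.UnipotentSymmetries
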